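import Vale.Agent.P017.H506.R0
import Vale.Agent.P017.H506.S3

/-!
# Leaf T6: the main terms of the sets which are not good, all six families
-/

namespace Vale.Agent.P017.H506

open Finset Function Vale.Agent.P014.FM
open Vale.Agent.P017.H443 (sg sg_zero sg_one sg_add sg_sum em wm wq zc z2_cases sum_swap prod_eq_sg
  em_sq sg_nonneg_add Dc wtP_Dc sum_supp J_prod_left J_one_left wm_add cop)

namespace T6

open S3

/-! ### reciprocity for odd `n` -/

theorem odd_of' {n : ℕ} (h2 : n % 2 = 1) (p : n.primeFactors) : (p : ℕ) % 2 = 1 := by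
  have h1 := Nat.dvd_of_mem_primeFactors p.2
  by_contra hc
  have h2 : 2 ∣ (p : ℕ) := by omega
  have := h2.trans h1
  omega

theorem wq_add' {n : ℕ} (h2 : n % 2 = 1) (p q : n.primeFactors) :
    wq p q + wq q p = em p * em q + (if p = q then em p else 0) := by
  unfold Vale.Agent.P017.H443.wq
  by_cases h : p = q
  · subst h
    rw [if_pos rfl, if_pos rfl, add_zero]
    unfold Vale.Agent.P017.H443.em
    split_ifs <;> decide
  · rw [if_neg h, if_neg (Ne.symm h), if_neg h, add_zero,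
      wm_add (odd_of' h2 p) (odd_of' h2 q) (cop h)]

theorem sum_bil' {n : ℕ} (h2 : n % 2 = 1) (s t : n.primeFactors → ZMod 2) :
    ∑ p, ∑ q, wq p q * (s p * t q + s q * t p) =
      ∑ q, t q * zc s q := by
  rw [sum_swap (fun p q => s p * t q), Finset.sum_comm]
  refine Finset.sum_congr rfl fun q _ => ?_
  unfold Vale.Agent.P017.H443.zc
  rw [Finset.mul_sum]
  refine Finset.sum_congr rfl fun p _ => ?_
  rw [wq_add' h2 p q]
  ring

/-! ### the additional characters -/

theorem chi8_mul (a b : ℕ) : chi8 (a * b) = chi8 a * chi8 b := by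
  unfold chi8
  rw [Nat.cast_mul, map_mul, Int.cast_mul]

theorem slot_mul (x y z : ZMod 2) (a b : ℕ) : slot x y z (a * b) = slot x y z a * slot x y z b := by
  unfold slot
  split_ifs <;>
    simp only [chi8_mul, Vale.Agent.P014.H580.J_mul_left, one_mul, mul_one] <;> ring

theorem slot_one (x y z : ZMod 2) : slot x y z 1 = 1 := by
  unfold slot
  have h8 : chi8 1 = 1 := by
    unfold chi8
    rw [Nat.cast_one, map_one, Int.cast_one]
  rw [h8, J_one_left, J_one_left]
  simp

theorem slot_prod {σ : Type*} (s : Finset σ) (f : σ → ℕ) (x y z : ZMod 2) :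
    slot x y z (∏ i ∈ s, f i) = ∏ i ∈ s, slot x y z (f i) := by
  classical
  induction s using Finset.induction_on with
  | empty => simp [slot_one]
  | insert i s hi ih => rw [Finset.prod_insert hi, Finset.prod_insert hi, slot_mul, ih]

theorem slots_Dc {k n : ℕ} (e8 e5 e3 : Ix k → ZMod 2) (c : n.primeFactors → Ix k) :
    ∏ u, slot (e8 u) (e5 u) (e3 u) (Dc c u) =
      ∏ p : n.primeFactors, slot (e8 (c p)) (e5 (c p)) (e3 (c p)) p := by
  have h1 : ∀ u, slot (e8 u) (e5 u) (e3 u) (Dc c u) =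
      ∏ p ∈ Finset.univ.filter (fun p => c p = u), slot (e8 (c p)) (e5 (c p)) (e3 (c p)) p := by
    intro u
    unfold Vale.Agent.P017.H443.Dc
    rw [slot_prod]
    refine Finset.prod_congr rfl fun p hp => ?_
    rw [Finset.mem_filter] at hp
    rw [hp.2]
  rw [Finset.prod_congr rfl fun u _ => h1 u]
  exact Finset.prod_fiberwise _ _ _

theorem mainS_eq {k n : ℕ} (hn : Squarefree n) (e8 e5 e3 : Ix k → ZMod 2) (U : Finset (Ix k)) :
    mainS (2 ^ k) (Pk k) e8 e5 e3 U n = (1 / ((2 ^ k : ℕ) : ℝ)) ^ n.primeFactors.card *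
      ∑ c ∈ Fintype.piFinset (fun _ : n.primeFactors => U),
        (∏ p : n.primeFactors, slot (e8 (c p)) (e5 (c p)) (e3 (c p)) p) *
          sg (∑ p, ∑ q, wq p q * Pk k (c p) (c q)) := by
  unfold mainS
  rw [sum_supp hn U (wtS (Pk k) e8 e5 e3)]
  congr 1
  refine Finset.sum_congr rfl fun c _ => ?_
  unfold wtS
  rw [slots_Dc, wtP_Dc, prod_eq_sg (fun p q => Pk k (c p) (c q)) (fun p => S3.Pk_self (c p))]

theorem chi8_pm {p : ℕ} (h : p % 2 = 1) : chi8 p = 1 ∨ chi8 p = -1 := by
  unfold chi8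
  have h1 : ∀ x : ZMod 8, x.val % 2 = 1 → ZMod.χ₈ x = 1 ∨ ZMod.χ₈ x = -1 := by decide
  have h2 : ((p : ZMod 8)).val % 2 = 1 := by
    rw [ZMod.val_natCast]
    omega
  rcases h1 _ h2 with h3 | h3
  · left; rw [h3]; norm_num
  · right; rw [h3]; norm_num

theorem ite_add {c : ℝ} {e δ : ZMod 2} (h : c = 1 ∨ c = -1 ∨ δ = 0) :
    (if e + δ = 1 then c else 1) = (if e = 1 then c else 1) * (if δ = 1 then c else 1) := by
  rcases z2_cases δ with hd | hd
  · rw [hd, add_zero, if_neg (by decide : ¬ (0 : ZMod 2) = 1), mul_one]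
  · have hc : c * c = 1 := by
      rcases h with h | h | h
      · rw [h]; norm_num
      · rw [h]; norm_num
      · rw [hd] at h; exact absurd h (by decide)
    rcases z2_cases e with he | he
    · rw [he, hd, zero_add, if_pos rfl, if_neg (by decide : ¬ (0 : ZMod 2) = 1), one_mul]
    · rw [he, hd, if_neg (by decide : ¬ (1 : ZMod 2) + 1 = 1), if_pos rfl, hc]

theorem slot_add {m : ℕ} (x y z dx dy dz : ZMod 2) (hx : chi8 m = 1 ∨ chi8 m = -1)
    (hy : J m 5 = 1 ∨ J m 5 = -1 ∨ dy = 0) (hz : J m 3 = 1 ∨ J m 3 = -1 ∨ dz = 0) :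
    slot (x + dx) (y + dy) (z + dz) m = slot x y z m * slot dx dy dz m := by
  unfold slot
  rw [ite_add (e := x) (δ := dx) (c := chi8 m) (by tauto), ite_add hy, ite_add hz]
  ring

theorem abs_ite (e : ZMod 2) {c : ℝ} (h : |c| ≤ 1) : |if e = 1 then c else 1| ≤ 1 := by
  split_ifs
  · exact h
  · norm_num

theorem slot_abs (x y z : ZMod 2) (m : ℕ) (hm : m % 2 = 1) : |slot x y z m| ≤ 1 := by
  unfold slot
  rw [abs_mul, abs_mul]
  have h1 : |chi8 m| ≤ 1 := by
    rcases chi8_pm hm with h | h <;> rw [h] <;> norm_num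
  have h2 := Vale.Agent.P014.H580.J_abs m 5
  have h3 := Vale.Agent.P014.H580.J_abs m 3
  exact mul_le_one₀ (mul_le_one₀ (abs_ite x h1) (abs_nonneg _) (abs_ite y h2)) (abs_nonneg _)
    (abs_ite z h3)

theorem ite_pm (e : ZMod 2) {c : ℝ} (h : c = 1 ∨ c = -1 ∨ e = 0) :
    (if e = 1 then c else 1) = 1 ∨ (if e = 1 then c else 1) = -1 := by
  rcases h with h | h | h
  · rw [h]; left; simp
  · rw [h]; by_cases he : e = 1
    · right; rw [if_pos he]
    · left; rw [if_neg he]
  · rw [h]; left; simp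

theorem slot_pm {m : ℕ} (dx dy dz : ZMod 2) (hx : chi8 m = 1 ∨ chi8 m = -1)
    (hy : J m 5 = 1 ∨ J m 5 = -1 ∨ dy = 0) (hz : J m 3 = 1 ∨ J m 3 = -1 ∨ dz = 0) :
    slot dx dy dz m = 1 ∨ slot dx dy dz m = -1 := by
  unfold slot
  have h1 := ite_pm dx (c := chi8 m) (by tauto)
  have h2 := ite_pm dy hy
  have h3 := ite_pm dz hz
  rcases h1 with h1 | h1 <;> rcases h2 with h2 | h2 <;> rcases h3 with h3 | h3 <;>
    rw [h1, h2, h3] <;> norm_num

theorem sg_pm (z : ZMod 2) : sg z = 1 ∨ sg z = -1 := by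
  rcases z2_cases z with h | h
  · left; rw [h, sg_zero]
  · right; rw [h, sg_one]

/-- the bound for the sum over one `t` -/
noncomputable def Bd (δ8 δ5 δ3 : ZMod 2) (q : ℕ) (z : ZMod 2) : ℝ :=
  if q % 4 = 3 then (if q = 3 ∧ δ3 = 1 then 1 else |1 + slot δ8 δ5 δ3 q * sg z|) else 2

theorem Bd_nonneg (δ8 δ5 δ3 : ZMod 2) (q : ℕ) (z : ZMod 2) : 0 ≤ Bd δ8 δ5 δ3 q z := by
  unfold Bd
  split_ifs
  · norm_num
  · exact abs_nonneg _
  · norm_num

theorem J_three {q : ℕ} (hq : q.Prime) : (J q 3 = 1 ∨ J q 3 = -1) ∨ q = 3 := by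
  by_cases h : q = 3
  · right; exact h
  · left
    apply Vale.Agent.P017.H443.J_pm
    rw [Nat.coprime_primes hq Nat.prime_three]
    exact h

theorem J_five {q : ℕ} (hq : q.Prime) (h4 : q % 4 = 3) : J q 5 = 1 ∨ J q 5 = -1 := by
  apply Vale.Agent.P017.H443.J_pm
  rw [Nat.coprime_primes hq Nat.prime_five]
  rintro rfl
  omega

theorem J_three_three : J 3 3 = 0 := by
  unfold Vale.Agent.P014.H580.J
  have : jacobiSym ((3 : ℕ) : ℤ) 3 = 0 := by
    rw [jacobiSym.eq_zero_iff_not_coprime]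
    decide
  rw [this, Int.cast_zero]

theorem Bd_bound (δ8 δ5 δ3 : ZMod 2) {q : ℕ} (hq : q.Prime) (h2 : q % 2 = 1) (x y w z : ZMod 2) :
    |slot x y w q + slot (x + δ8) (y + δ5) (w + δ3) q * sg z| ≤ Bd δ8 δ5 δ3 q z := by
  have a1 := slot_abs x y w q h2
  have a2 := slot_abs (x + δ8) (y + δ5) (w + δ3) q h2
  have hs : |sg z| = 1 := by
    rcases sg_pm z with h | h <;> rw [h] <;> norm_num
  unfold Bd
  split_ifs with h4 h3
  · obtain ⟨rfl, h3⟩ := h3
    have key : slot x y w 3 = 0 ∨ slot (x + δ8) (y + δ5) (w + δ3) 3 = 0 := by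
      rcases z2_cases w with hw | hw
      · right
        unfold slot
        rw [hw, h3, zero_add, if_pos (rfl : (1 : ZMod 2) = 1), J_three_three, mul_zero]
      · left
        unfold slot
        rw [hw, if_pos (rfl : (1 : ZMod 2) = 1), J_three_three, mul_zero]
    rcases key with h | h
    · rw [h, zero_add, abs_mul, hs, mul_one]
      exact a2
    · rw [h, zero_mul, add_zero]
      exact a1
  · have hz : J q 3 = 1 ∨ J q 3 = -1 ∨ δ3 = 0 := by
      rcases J_three hq with h | h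
      · tauto
      · rcases z2_cases δ3 with h5 | h5
        · tauto
        · exact absurd ⟨h, h5⟩ h3
    have hy : J q 5 = 1 ∨ J q 5 = -1 ∨ δ5 = 0 := by
      have := J_five hq h4
      tauto
    rw [slot_add x y w δ8 δ5 δ3 (chi8_pm h2) hy hz]
    have e : slot x y w q + slot x y w q * slot δ8 δ5 δ3 q * sg z =
        slot x y w q * (1 + slot δ8 δ5 δ3 q * sg z) := by ring
    rw [e, abs_mul]
    exact mul_le_of_le_one_left (abs_nonneg _) a1
  · refine (abs_add_le _ _).trans ?_
    rw [abs_mul, hs, mul_one]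
    linarith

theorem Bd_sum (δ8 δ5 δ3 : ZMod 2) {q : ℕ} (hq : q.Prime) (h2 : q % 2 = 1) (ρ : ZMod 2) :
    ∑ a : ZMod 2, Bd δ8 δ5 δ3 q (em q * (ρ + a)) ≤ if em q = 1 then (2 : ℝ) else 4 := by
  have h3 : ∀ f : ZMod 2 → ℝ, ∑ a : ZMod 2, f a = f 0 + f 1 := fun f => Fin.sum_univ_two f
  rw [h3]
  by_cases h4 : q % 4 = 3
  · have he : em q = 1 := by
      unfold Vale.Agent.P017.H443.em
      rw [if_pos h4]
    rw [he, if_pos rfl, one_mul, one_mul, add_zero]
    have h5 : Bd δ8 δ5 δ3 q ρ + Bd δ8 δ5 δ3 q (ρ + 1) = Bd δ8 δ5 δ3 q 0 + Bd δ8 δ5 δ3 q 1 := by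
      rcases z2_cases ρ with h | h
      · rw [h, zero_add]
      · rw [h, show (1 : ZMod 2) + 1 = 0 by decide, add_comm]
    rw [h5]
    unfold Bd
    rw [if_pos h4, if_pos h4]
    split_ifs with h6
    · norm_num
    · have hz : J q 3 = 1 ∨ J q 3 = -1 ∨ δ3 = 0 := by
        rcases J_three hq with h | h
        · tauto
        · rcases z2_cases δ3 with h5 | h5
          · tauto
          · exact absurd ⟨h, h5⟩ h6
      have hy : J q 5 = 1 ∨ J q 5 = -1 ∨ δ5 = 0 := by
        have := J_five hq h4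
        tauto
      rw [sg_zero, sg_one]
      rcases slot_pm δ8 δ5 δ3 (chi8_pm h2) hy hz with h | h <;> rw [h] <;> norm_num
  · have he : em q = 0 := by
      unfold Vale.Agent.P017.H443.em
      rw [if_neg h4]
    rw [he, if_neg (by decide), zero_mul, zero_mul]
    unfold Bd
    rw [if_neg h4]
    norm_num

variable {k : ℕ}

/-! ### the exponents are affine on `U` -/

/-- the linear part of `E8` -/
def L8 (θ : Tx k) (u : Ix k) : ZMod 2 := ∑ i, (u i).2 * θ.1 i

theorem E8_eq (tp : ℕ) (θ : Tx k) (u : Ix k) :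
    E8 tp θ u = L8 θ u + (if tp = 2 then BB u u else 0) := by
  unfold E8 L8 BB
  by_cases h : tp = 2
  · simp only [if_pos h, mul_add, Finset.sum_add_distrib]
    congr 1
    exact Finset.sum_congr rfl fun i _ => mul_comm _ _
  · simp only [if_neg h, add_zero]

theorem L8_add (θ : Tx k) (u v : Ix k) : L8 θ (u + v) = L8 θ u + L8 θ v := by
  unfold L8
  rw [← Finset.sum_add_distrib]
  refine Finset.sum_congr rfl fun i _ => ?_
  rw [Pi.add_apply, Prod.snd_add, add_mul]

theorem E5_add (θ : Tx k) (u v : Ix k) : E5 θ (u + v) = E5 θ u + E5 θ v := by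
  unfold E5
  rw [← Finset.sum_add_distrib]
  refine Finset.sum_congr rfl fun i _ => ?_
  rw [Pi.add_apply, Prod.snd_add, add_mul]

theorem E3_add (θ : Tx k) (u v : Ix k) : E3 θ (u + v) = E3 θ u + E3 θ v := by
  unfold E3
  rw [← Finset.sum_add_distrib]
  refine Finset.sum_congr rfl fun i _ => ?_
  rw [Pi.add_apply, Prod.fst_add, mul_add]

theorem E8_add (tp : ℕ) (θ : Tx k) {x b : Ix k} {κ₀ : ZMod 2} (hb : BB b b = 0)
    (hx : BB x b + BB b x = κ₀) :
    E8 tp θ (x + b) = E8 tp θ x + (L8 θ b + (if tp = 2 then κ₀ else 0)) := by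
  rw [E8_eq, E8_eq, L8_add]
  split_ifs
  · rw [BB_add_left, BB_add_right, BB_add_right, hb, ← hx]
    ring
  · ring

variable {κ : Type*} [Fintype κ] [DecidableEq κ]

/-- the sum over `s` -/
theorem sum_sB (e : κ → ZMod 2) (B : κ → ZMod 2 → ℝ) (hB : ∀ q z, 0 ≤ B q z) (m : κ → ℝ)
    (hm : ∀ q ρ, ∑ a : ZMod 2, B q (e q * (ρ + a)) ≤ m q)
    (ρ : (κ → ZMod 2) → ZMod 2) (l : κ → ZMod 2) :
    ∑ s : κ → ZMod 2, ∏ q, B q (e q * (ρ s + (s q + l q))) ≤ 2 * ∏ q, m q := by
  have h1 : ∀ s : κ → ZMod 2, ∏ q, B q (e q * (ρ s + (s q + l q))) ≤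
      ∏ q, B q (e q * (0 + (s q + l q))) + ∏ q, B q (e q * (1 + (s q + l q))) := by
    intro s
    have h0 : ∀ x : ZMod 2, 0 ≤ ∏ q, B q (e q * (x + (s q + l q))) := fun x =>
      Finset.prod_nonneg fun q _ => hB _ _
    rcases z2_cases (ρ s) with h | h
    · rw [h]
      have := h0 1
      linarith
    · rw [h]
      have := h0 0
      linarith
  refine (Finset.sum_le_sum fun s _ => h1 s).trans ?_
  rw [Finset.sum_add_distrib]
  have h2 : ∀ x : ZMod 2, ∑ s : κ → ZMod 2, ∏ q, B q (e q * (x + (s q + l q))) ≤ ∏ q, m q := by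
    intro x
    have h3 : ∑ s : κ → ZMod 2, ∏ q, B q (e q * (x + (s q + l q))) =
        ∑ s : κ → ZMod 2, ∏ q, B q (e q * (x + s q)) := by
      refine Fintype.sum_equiv (Equiv.addRight l) _ _ fun s => ?_
      rfl
    rw [h3]
    have h4 := Finset.prod_univ_sum (fun _ : κ => (Finset.univ : Finset (ZMod 2)))
      (fun q a => B q (e q * (x + a)))
    rw [Fintype.piFinset_univ] at h4
    rw [← h4]
    exact Finset.prod_le_prod (fun q _ => Finset.sum_nonneg fun a _ => hB _ _)
      (fun q _ => hm q x)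
  linarith [h2 0, h2 1]

/-- the sum over `t` -/
theorem sum_tB (f : κ → ZMod 2 → ℝ) :
    ∑ t : κ → ZMod 2, ∏ q, f q (t q) = ∏ q, (f q 0 + f q 1) := by
  have h2 := Finset.prod_univ_sum (fun _ : κ => (Finset.univ : Finset (ZMod 2)))
    (fun q a => f q a)
  rw [Fintype.piFinset_univ] at h2
  rw [← h2]
  exact Finset.prod_congr rfl fun q _ => Fin.sum_univ_two _

end T6

open S3 T6 in
/-- T6 -/
theorem bad_bound3 (tp k : ℕ) (θ : Tx k) {U : Finset (Ix k)} (hU : U ∈ UsN (Pk k) (2 ^ k))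
    (hb : ¬ Good (Pk k) U) {n : ℕ} (hn : Squarefree n) (h2 : n % 2 = 1) :
    |mainT tp θ U n| ≤ 2 * (1 / 2) ^ (n.primeFactors.filter (fun p => p % 4 = 3)).card := by
  classical
  obtain ⟨hcard, hq⟩ := S3.mem_UsN hU
  unfold Good at hb
  push Not at hb
  obtain ⟨u, hu, v, hv, w, hw, huvw⟩ := hb
  set a : Ix k := u + w with ha
  set b : Ix k := v + w with hbd
  have hbb : BB b b = 0 := hq v hv w hw
  have hab : BB b a = 1 := by
    have h1 := polar hU hu hv hw
    have h2 : Pk k u v + (Pk k u w + Pk k v w) = BB a b := by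
      have e1 : u = w + a := by
        rw [ha, add_comm u w, ← add_assoc, vadd_self, zero_add]
      have e2 : v = w + b := by
        rw [hbd, add_comm v w, ← add_assoc, vadd_self, zero_add]
      rw [Pk_eq, Pk_eq, Pk_eq]
      rw [e1, e2]
      simp only [BB_add_left, BB_add_right, hbb]
      have := add_self (BB w w)
      have h5 := add_self (BB a w)
      have h6 := add_self (BB w b)
      have h7 := add_self (BB b w)
      linear_combination 3 * this + h5 + h6 + h7
    have h3 : BB a b ≠ 0 := by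
      rw [← h2]
      intro h
      exact huvw ((eq_iff_add _ _).2 h)
    have h5 : BB a b = BB b a := (eq_iff_add _ _).2 h1
    rcases z2_cases (BB b a) with h | h
    · exact absurd (h5.trans h) h3
    · exact h
  have hclosed_a : ∀ x ∈ U, ∀ t : ZMod 2, x + t • a ∈ U := by
    intro x hx t
    rcases z2_cases t with h | h
    · rw [h, zero_smul, add_zero]; exact hx
    · rw [h, one_smul, ha, ← add_assoc]
      exact closed hU hx hu hw
  have hclosed_b : ∀ x ∈ U, ∀ t : ZMod 2, x + t • b ∈ U := by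
    intro x hx t
    rcases z2_cases t with h | h
    · rw [h, zero_smul, add_zero]; exact hx
    · rw [h, one_smul, hbd, ← add_assoc]
      exact closed hU hx hv hw
  -- the polar form with `b` vanishes on differences
  have hpol : ∀ x ∈ U, ∀ y ∈ U, BB (x + y) b = BB b (x + y) := by
    intro x hx y hy
    have h1 := polar hU hx hw hy
    have h2 := polar hU hx hv hy
    rw [eq_iff_add]
    have e : b = (v + y) + (w + y) := by
      have : (v + y) + (w + y) = v + w + (y + y) := by abel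
      rw [this, vadd_self, add_zero]
    rw [e, BB_add_right (x + y) (v + y) (w + y), BB_add_left (v + y) (w + y) (x + y)]
    linear_combination h1 + h2
  have hconst : ∀ x ∈ U, BB x b + BB b x = BB w b + BB b w := by
    intro x hx
    have h1 := hpol x hx w hw
    rw [BB_add_left x w b, BB_add_right b x w] at h1
    have h3 := add_self (BB w b)
    have h4 := add_self (BB b x)
    linear_combination h1 + h4 - h3
  -- the changes of the exponents in the direction `b`
  set δ8 : ZMod 2 := L8 θ b + (if tp = 2 then BB w b + BB b w else 0) with hδ8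
  set δ5 : ZMod 2 := E5 θ b with hδ5
  set δ3 : ZMod 2 := E3 θ b with hδ3
  set κ := n.primeFactors with hκ
  let sl : κ → Ix k → ℝ := fun p x => slot (E8 tp θ x) (E5 θ x) (E3 θ x) p
  -- the sum over colourings
  set T : Finset (κ → Ix k) := Fintype.piFinset (fun _ : κ => U) with hT
  let G : (κ → Ix k) → ℝ := fun c => (∏ p, sl p (c p)) * sg (∑ p, ∑ q, wq p q * Pk k (c p) (c q))
  have hmain : mainT tp θ U n = (1 / ((2 ^ k : ℕ) : ℝ)) ^ n.primeFactors.card *
      ∑ c ∈ T, G c := mainS_eq hn _ _ _ U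
  -- translations
  let tr : (κ → ZMod 2) → (κ → ZMod 2) → (κ → Ix k) → (κ → Ix k) :=
    fun s t c p => c p + s p • a + t p • b
  have htrT : ∀ s t, ∀ c ∈ T, tr s t c ∈ T := by
    intro s t c hc
    rw [hT, Fintype.mem_piFinset] at hc ⊢
    exact fun p => hclosed_b _ (hclosed_a _ (hc p) _) _
  have htr2 : ∀ s t c, tr s t (tr s t c) = c := by
    intro s t c
    funext p
    change c p + s p • a + t p • b + s p • a + t p • b = c p
    have e : c p + s p • a + t p • b + s p • a + t p • b =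
        c p + (s p • a + s p • a) + (t p • b + t p • b) := by abel
    rw [e, vadd_self, vadd_self, add_zero, add_zero]
  have hsum : ∀ s t, ∑ c ∈ T, G (tr s t c) = ∑ c ∈ T, G c := by
    intro s t
    refine Finset.sum_bij' (fun c _ => tr s t c) (fun c _ => tr s t c) (htrT s t) (htrT s t)
      (fun c _ => htr2 s t c) (fun c _ => htr2 s t c) (fun c _ => rfl)
  -- the exponent after a translation in the direction `b`
  have hexp : ∀ c ∈ T, ∀ s t, G (tr s t c) =
      sg (∑ p, ∑ q, wq p q * Pk k (tr s 0 c p) (tr s 0 c q)) *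
        ∏ q, (sl q (tr s t c q) * sg (t q * zc (fun p => BB b (c p) + s p) q)) := by
    intro c hc s t
    rw [hT, Fintype.mem_piFinset] at hc
    have hx : ∀ p, c p + s p • a ∈ U := fun p => hclosed_a _ (hc p) _
    have e0 : ∀ p, tr s 0 c p = c p + s p • a := by
      intro p
      change c p + s p • a + (0 : ZMod 2) • b = _
      rw [zero_smul, add_zero]
    have e1 : ∀ p q, Pk k (tr s t c p) (tr s t c q) =
        Pk k (tr s 0 c p) (tr s 0 c q) +
          ((BB b (c p) + s p) * t q + (BB b (c q) + s q) * t p) := by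
      intro p q
      rw [e0, e0]
      have h1 := Pk_trans hbb (hpol _ (hx p) _ (hx q)) (t p) (t q)
      have h2 : ∀ r, BB b (c r + s r • a) = BB b (c r) + s r := by
        intro r
        rw [BB_add_right, BB_smul_right, hab, mul_one]
      rw [h2, h2] at h1
      exact h1
    have e2 : ∑ p, ∑ q, wq p q * Pk k (tr s t c p) (tr s t c q) =
        ∑ p, ∑ q, wq p q * Pk k (tr s 0 c p) (tr s 0 c q) +
          ∑ q, t q * zc (fun p => BB b (c p) + s p) q := by
      rw [← sum_bil' h2, ← Finset.sum_add_distrib]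
      refine Finset.sum_congr rfl fun p _ => ?_
      rw [← Finset.sum_add_distrib]
      refine Finset.sum_congr rfl fun q _ => ?_
      rw [e1, mul_add]
    change (∏ p, sl p (tr s t c p)) * sg (∑ p, ∑ q, wq p q * Pk k (tr s t c p) (tr s t c q)) = _
    rw [e2, sg_add, Finset.prod_mul_distrib, ← sg_sum]
    ring
  -- the coefficients
  have hzc : ∀ (σ : κ → ZMod 2) (q : κ), zc σ q = em q * ((∑ p : κ, em p * σ p) + σ q) := by
    intro σ q
    unfold Vale.Agent.P017.H443.zc
    simp only [add_mul, Finset.sum_add_distrib, ite_mul, zero_mul]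
    rw [Finset.sum_ite_eq' univ q (fun p : κ => em p * σ p), if_pos (Finset.mem_univ _), mul_add,
      Finset.mul_sum]
    congr 1
    exact Finset.sum_congr rfl fun p _ => by ring
  have hsg : ∀ x, |sg x| = 1 := by
    intro x
    rcases z2_cases x with h | h
    · rw [h, sg_zero, abs_one]
    · rw [h, sg_one, abs_neg, abs_one]
  have hprime : ∀ q : κ, (q : ℕ).Prime := fun q => Nat.prime_of_mem_primeFactors q.2
  have hinner : ∀ c ∈ T, |∑ s : κ → ZMod 2, ∑ t : κ → ZMod 2, G (tr s t c)| ≤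
      2 * ∏ q : κ, (if em (q : ℕ) = 1 then (2 : ℝ) else 4) := by
    intro c hc
    refine (Finset.abs_sum_le_sum_abs _ _).trans ?_
    refine le_trans (Finset.sum_le_sum fun s _ => ?_)
      (sum_sB (fun q : κ => em (q : ℕ)) (fun q z => Bd δ8 δ5 δ3 (q : ℕ) z)
        (fun q z => Bd_nonneg _ _ _ _ _) (fun q => if em (q : ℕ) = 1 then (2 : ℝ) else 4)
        (fun q ρ => Bd_sum δ8 δ5 δ3 (hprime q) (odd_of' h2 q) ρ)
        (fun s => ∑ p : κ, em (p : ℕ) * (BB b (c p) + s p))
        (fun q => BB b (c q)))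
    rw [Finset.sum_congr rfl fun t _ => hexp c hc s t, ← Finset.mul_sum, abs_mul, hsg, one_mul]
    have h5 : ∑ t : κ → ZMod 2, ∏ q, (sl q (tr s t c q) *
        sg (t q * zc (fun p => BB b (c p) + s p) q)) =
        ∏ q, (sl q (c q + s q • a) + sl q (c q + s q • a + b) *
          sg (zc (fun p => BB b (c p) + s p) q)) := by
      have h6 := sum_tB (fun (q : κ) (x : ZMod 2) => sl q (c q + s q • a + x • b) *
        sg (x * zc (fun p => BB b (c p) + s p) q))
      refine Eq.trans h6 ?_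
      refine Finset.prod_congr rfl fun q _ => ?_
      rw [zero_smul, add_zero, zero_mul, sg_zero, mul_one, one_smul, one_mul]
    rw [h5, Finset.abs_prod]
    refine Finset.prod_le_prod (fun q _ => abs_nonneg _) fun q _ => ?_
    have hx : c q + s q • a ∈ U := by
      rw [hT, Fintype.mem_piFinset] at hc
      exact hclosed_a _ (hc q) _
    have h7 : sl q (c q + s q • a + b) = slot (E8 tp θ (c q + s q • a) + δ8)
        (E5 θ (c q + s q • a) + δ5) (E3 θ (c q + s q • a) + δ3) q := by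
      change slot (E8 tp θ (c q + s q • a + b)) (E5 θ (c q + s q • a + b))
        (E3 θ (c q + s q • a + b)) q = _
      rw [E8_add tp θ hbb (hconst _ hx), E5_add, E3_add]
    rw [h7]
    have h8 := Bd_bound δ8 δ5 δ3 (hprime q) (odd_of' h2 q) (E8 tp θ (c q + s q • a))
      (E5 θ (c q + s q • a)) (E3 θ (c q + s q • a)) (zc (fun p => BB b (c p) + s p) q)
    refine h8.trans (le_of_eq ?_)
    rw [hzc, add_comm (s q)]
  have htotal : (4 : ℝ) ^ n.primeFactors.card * |∑ c ∈ T, G c| ≤
      (((2 ^ k : ℕ) : ℝ)) ^ n.primeFactors.card *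
        (2 * ∏ q : κ, (if em (q : ℕ) = 1 then (2 : ℝ) else 4)) := by
    have h1 : ∑ s : κ → ZMod 2, ∑ t : κ → ZMod 2, ∑ c ∈ T, G (tr s t c) =
        (4 : ℝ) ^ n.primeFactors.card * ∑ c ∈ T, G c := by
      rw [Finset.sum_congr rfl fun s _ => Finset.sum_congr rfl fun t _ => hsum s t]
      rw [Finset.sum_const, Finset.sum_const, Finset.card_univ, Fintype.card_fun, ZMod.card,
        Fintype.card_coe, nsmul_eq_mul, nsmul_eq_mul, ← mul_assoc]
      congr 1
      push_cast
      rw [← mul_pow, ← hκ]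
      norm_num
    have h2 : ∑ s : κ → ZMod 2, ∑ t : κ → ZMod 2, ∑ c ∈ T, G (tr s t c) =
        ∑ c ∈ T, ∑ s : κ → ZMod 2, ∑ t : κ → ZMod 2, G (tr s t c) := by
      rw [Finset.sum_congr rfl fun s _ => Finset.sum_comm, Finset.sum_comm]
    have h3 : (4 : ℝ) ^ n.primeFactors.card * |∑ c ∈ T, G c| =
        |(4 : ℝ) ^ n.primeFactors.card * ∑ c ∈ T, G c| := by
      rw [abs_mul, abs_of_nonneg (by positivity : (0 : ℝ) ≤ 4 ^ _)]
    rw [h3, ← h1, h2]
    refine (Finset.abs_sum_le_sum_abs _ _).trans ?_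
    refine (Finset.sum_le_card_nsmul _ _ _ hinner).trans (le_of_eq ?_)
    rw [hT, Fintype.card_piFinset, Finset.prod_const, Finset.card_univ, Fintype.card_coe, hcard,
      nsmul_eq_mul]
    push_cast
    rfl
  have hprod : ∏ q : κ, (if em (q : ℕ) = 1 then (2 : ℝ) else 4) =
      4 ^ n.primeFactors.card * (1 / 2) ^ (n.primeFactors.filter (fun p => p % 4 = 3)).card := by
    have h1 : ∀ p : ℕ, em p = 1 ↔ p % 4 = 3 := by
      intro p
      unfold Vale.Agent.P017.H443.em
      split_ifs with h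
      · simp [h]
      · simp [h]
    rw [Finset.prod_coe_sort n.primeFactors (fun q => if em q = 1 then (2 : ℝ) else 4)]
    rw [← Finset.prod_const, ← Finset.prod_const, Finset.prod_filter, ← Finset.prod_mul_distrib]
    refine Finset.prod_congr rfl fun p _ => ?_
    by_cases h : p % 4 = 3
    · rw [if_pos ((h1 p).2 h), if_pos h]; norm_num
    · rw [if_neg (fun h2 => h ((h1 p).1 h2)), if_neg h]; norm_num
  rw [hmain, abs_mul, abs_of_nonneg (by positivity : (0 : ℝ) ≤ (1 / ((2 ^ k : ℕ) : ℝ)) ^ _)]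
  rw [hprod] at htotal
  have hK : (0 : ℝ) < ((2 ^ k : ℕ) : ℝ) := by positivity
  have h5 : (1 / ((2 ^ k : ℕ) : ℝ)) ^ n.primeFactors.card *
      (((2 ^ k : ℕ) : ℝ)) ^ n.primeFactors.card = 1 := by
    rw [← mul_pow, one_div, inv_mul_cancel₀ hK.ne', one_pow]
  have h6 : |∑ c ∈ T, G c| ≤ (((2 ^ k : ℕ) : ℝ)) ^ n.primeFactors.card *
      (2 * (1 / 2) ^ (n.primeFactors.filter (fun p => p % 4 = 3)).card) := by
    have h7 : (0 : ℝ) < 4 ^ n.primeFactors.card := by positivity
    refine le_of_mul_le_mul_left ?_ h7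
    refine htotal.trans (le_of_eq ?_)
    ring
  calc (1 / ((2 ^ k : ℕ) : ℝ)) ^ n.primeFactors.card * |∑ c ∈ T, G c|
      ≤ (1 / ((2 ^ k : ℕ) : ℝ)) ^ n.primeFactors.card *
        ((((2 ^ k : ℕ) : ℝ)) ^ n.primeFactors.card *
          (2 * (1 / 2) ^ (n.primeFactors.filter (fun p => p % 4 = 3)).card)) := by gcongr
    _ = 2 * (1 / 2) ^ (n.primeFactors.filter (fun p => p % 4 = 3)).card := by
      rw [← mul_assoc, h5, one_mul]

end Vale.Agent.P017.H506
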